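import Vale.Agent.P272.K.AMP.Main.Arith

/-!
# The boosting lemma

`m s ≥ 0` are continuous functions, `s ∈ S`, concave along mixtures, bounded in `L²`. If for every
`s` and `N` some `s'` has `∫ e^{-N m_s} m_{s'} ≥ d ∫ e^{-N m_s}`, then `m_s ≥ d/2` outside sets of
arbitrarily small measure.
-/

open scoped Topology
open MeasureTheory Set Filter

set_option linter.all false

noncomputable section

namespace Vale.Agent.P272.K.AMP.BIG.H821

open ABP (integrable_cont)

/-- `x log x ≥ x log a + x - a` -/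
lemma xlogx_ge {x a : ℝ} (hx : 0 < x) (ha : 0 < a) :
    x * Real.log a + x - a ≤ x * Real.log x := by
  have h1 : Real.log (a / x) ≤ a / x - 1 := Real.log_le_sub_one_of_pos (by positivity)
  rw [Real.log_div ha.ne' hx.ne'] at h1
  have h2 := mul_le_mul_of_nonneg_left h1 hx.le
  have h3 : x * (a / x - 1) = a - x := by field_simp
  rw [h3] at h2
  linarith

/-- `e^{-y} F ≤ F (1 - y) + y²/2` if `0 ≤ F ≤ 1` and `e^{-y} F ≤ 1` -/
lemma exp_taylor {F y : ℝ} (hF : 0 ≤ F) (hF1 : F ≤ 1) (hFy : Real.exp (-y) * F ≤ 1) :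
    Real.exp (-y) * F ≤ F * (1 - y) + y ^ 2 := by
  rcases le_total 0 y with hy | hy
  · -- `e^{-y} ≤ 1 - y + y²`
    have h1 : Real.exp (-y) ≤ 1 - y + y ^ 2 := by
      have h2 : 1 + y ≤ Real.exp y := by linarith [Real.add_one_le_exp y]
      have h3 : Real.exp (-y) ≤ (1 + y)⁻¹ := by
        rw [Real.exp_neg]
        exact inv_anti₀ (by linarith) h2
      have h4 : (1 + y)⁻¹ ≤ 1 - y + y ^ 2 := by
        rw [inv_le_iff_one_le_mul₀ (by linarith)]
        nlinarith [pow_nonneg hy 3]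
      exact h3.trans h4
    have h2 := mul_le_mul_of_nonneg_right h1 hF
    nlinarith [mul_le_mul_of_nonneg_right hF1 (sq_nonneg y)]
  · -- `e^{-y} F (1 + y) ≤ F`
    have h1 : Real.exp (-y) * (1 + y) ≤ 1 := by
      have h2 : 1 + y ≤ Real.exp y := by linarith [Real.add_one_le_exp y]
      calc Real.exp (-y) * (1 + y) ≤ Real.exp (-y) * Real.exp y :=
            mul_le_mul_of_nonneg_left h2 (Real.exp_pos _).le
        _ = 1 := by rw [← Real.exp_add]; simp
    -- `e^{-y}F = F (1 - y) + y² (e^{-y} F) + (1 - y) (e^{-y} F (1+y) - F)`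
    have h2 : Real.exp (-y) * F = F * (1 - y) + y ^ 2 * (Real.exp (-y) * F) +
        (1 - y) * (F * (Real.exp (-y) * (1 + y) - 1)) := by ring
    have h3 : (1 - y) * (F * (Real.exp (-y) * (1 + y) - 1)) ≤ 0 := by
      have h4 : F * (Real.exp (-y) * (1 + y) - 1) ≤ 0 :=
        mul_nonpos_of_nonneg_of_nonpos hF (by linarith)
      exact mul_nonpos_of_nonneg_of_nonpos (by linarith) h4
    have h4 : y ^ 2 * (Real.exp (-y) * F) ≤ y ^ 2 := by
      have := mul_le_mul_of_nonneg_left hFy (sq_nonneg y)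
      linarith
    linarith

variable {X : Type*} [TopologicalSpace X] [CompactSpace X] [MeasurableSpace X] [BorelSpace X]

/-- the infimum of `∫ e^{-N m_s}` is at most `μ(X) e^{-N d}` -/
theorem boost_inf {S : Type*} [Nonempty S] (μ : Measure X) [IsFiniteMeasure μ] (m : S → X → ℝ)
    (cm : ∀ s, Continuous (m s)) (m0 : ∀ s x, 0 ≤ m s x)
    (mix : ∀ s s' (r : ℝ), 0 ≤ r → r ≤ 1 → ∃ s'', ∀ x, (1 - r) * m s x + r * m s' x ≤ m s'' x)
    {C : ℝ} (L2 : ∀ s, ∫ x, m s x ^ 2 ∂μ ≤ C) {d N : ℝ} (hN : 0 < N)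
    (oracle : ∀ s, ∃ s', d * ∫ x, Real.exp (-(N * m s x)) ∂μ ≤
      ∫ x, Real.exp (-(N * m s x)) * m s' x ∂μ) {κ : ℝ} (hκ : 0 < κ) :
    ∃ s, ∫ x, Real.exp (-(N * m s x)) ∂μ ≤ μ.real univ * Real.exp (-(N * d)) + κ := by
  set Φ : S → ℝ := fun s => ∫ x, Real.exp (-(N * m s x)) ∂μ with hΦ
  have hΦ0 : ∀ s, 0 ≤ Φ s := fun s => integral_nonneg fun x => (Real.exp_pos _).le
  set W : ℝ := μ.real univ with hW
  have hW0 : 0 ≤ W := measureReal_nonneg
  by_contra hcon
  push Not at hcon
  set I : ℝ := ⨅ s, Φ s with hI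
  have hbdd : BddBelow (range Φ) := ⟨0, by rintro _ ⟨s, rfl⟩; exact hΦ0 s⟩
  have hIle : ∀ s, I ≤ Φ s := fun s => ciInf_le hbdd s
  have hIge : W * Real.exp (-(N * d)) + κ ≤ I := le_ciInf fun s => (hcon s).le
  have hI0 : 0 < I := by
    have : 0 ≤ W * Real.exp (-(N * d)) := by positivity
    linarith
  -- the total mass is positive
  have hWpos : 0 < W := by
    obtain ⟨s⟩ := (inferInstance : Nonempty S)
    have h1 : Φ s ≤ W := by
      have h2 : Φ s ≤ ∫ _, (1 : ℝ) ∂μ := by
        refine integral_mono (integrable_cont μ ?_) (integrable_cont μ continuous_const) fun x => ?_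
        · have := cm s; fun_prop
        · show Real.exp (-(N * m s x)) ≤ 1
          rw [Real.exp_le_one_iff]
          have := mul_nonneg hN.le (m0 s x)
          linarith
      rwa [integral_const, smul_eq_mul, mul_one] at h2
    exact lt_of_lt_of_le hI0 ((hIle s).trans h1)
  set L : ℝ := -(1 / N) * Real.log (I / W) with hL
  have hLd : L < d := by
    have h1 : Real.exp (-(N * d)) < I / W := by
      rw [lt_div_iff₀ hWpos]
      nlinarith
    have h2 : -(N * d) < Real.log (I / W) := by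
      rwa [← Real.exp_lt_exp, Real.exp_log (by positivity)]
    have h3 : -(1 / N) * Real.log (I / W) < -(1 / N) * -(N * d) :=
      mul_lt_mul_of_neg_left h2 (by
        have : 0 < 1 / N := by positivity
        linarith)
    have h4 : -(1 / N) * -(N * d) = d := by field_simp
    rw [h4] at h3
    exact h3
  set δ0 : ℝ := d - L with hδ0
  have hδ0p : 0 < δ0 := by rw [hδ0]; linarith
  have hC0 : 0 ≤ C := by
    obtain ⟨s⟩ := (inferInstance : Nonempty S)
    exact le_trans (integral_nonneg fun x => sq_nonneg _) (L2 s)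
  set r : ℝ := min 1 (I * δ0 / (4 * N * (C + 1))) with hr
  have hr0 : 0 < r := lt_min one_pos (by positivity)
  have hr1 : r ≤ 1 := min_le_left _ _
  have hrC : r * (4 * N * (C + 1)) ≤ I * δ0 := by
    have h1 : r ≤ I * δ0 / (4 * N * (C + 1)) := min_le_right _ _
    rwa [le_div_iff₀ (by positivity)] at h1
  set κ' : ℝ := N * r * (I * δ0) / 2 with hκ'
  have hκ'0 : 0 < κ' := by positivity
  obtain ⟨s, hs⟩ := exists_lt_of_ciInf_lt (show (⨅ s, Φ s) < I + κ' by
    rw [← hI]; linarith)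
  obtain ⟨s', hs'⟩ := oracle s
  obtain ⟨s'', hs''⟩ := mix s s' r hr0.le hr1
  set F : X → ℝ := fun x => Real.exp (-(N * m s x)) with hF
  have hF0 : ∀ x, 0 < F x := fun x => Real.exp_pos _
  have hF1 : ∀ x, F x ≤ 1 := fun x => by
    rw [hF]
    show Real.exp (-(N * m s x)) ≤ 1
    rw [Real.exp_le_one_iff]
    have := mul_nonneg hN.le (m0 s x)
    linarith
  have c1 := cm s
  have c2 := cm s'
  have c3 := cm s''
  have cF : Continuous F := by rw [hF]; fun_prop
  have hΦs : Φ s = ∫ x, F x ∂μ := rfl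
  have hΦp : 0 < Φ s := lt_of_lt_of_le hI0 (hIle s)
  -- the entropy inequality
  have hent : ∫ x, F x * m s x ∂μ ≤ L * Φ s := by
    set a : ℝ := Φ s / W with ha
    have ha0 : 0 < a := by positivity
    have h1 : ∫ x, (F x * Real.log a + F x - a) ∂μ ≤ ∫ x, -(N * (F x * m s x)) ∂μ := by
      refine integral_mono (integrable_cont μ (by fun_prop)) (integrable_cont μ (by fun_prop))
        fun x => ?_
      have h2 := xlogx_ge (hF0 x) ha0
      have h3 : Real.log (F x) = -(N * m s x) := Real.log_exp _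
      rw [h3] at h2
      show F x * Real.log a + F x - a ≤ -(N * (F x * m s x))
      linarith
    have h2 : ∫ x, (F x * Real.log a + F x - a) ∂μ = Φ s * Real.log a := by
      rw [integral_sub (integrable_cont μ (by fun_prop)) (integrable_cont μ continuous_const),
        integral_add (integrable_cont μ (by fun_prop)) (integrable_cont μ cF),
        integral_mul_const, integral_const, smul_eq_mul, ← hΦs]
      have : W * a = Φ s := by rw [ha]; field_simp
      rw [← hW, this]; ring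
    have h3 : ∫ x, -(N * (F x * m s x)) ∂μ = -(N * ∫ x, F x * m s x ∂μ) := by
      rw [integral_neg, integral_const_mul]
    rw [h2, h3] at h1
    have h4 : Real.log (I / W) ≤ Real.log a :=
      Real.log_le_log (by positivity) (div_le_div_of_nonneg_right (hIle s) hWpos.le)
    have h5 : N * ∫ x, F x * m s x ∂μ ≤ -(Φ s * Real.log (I / W)) := by
      have := mul_le_mul_of_nonneg_left h4 hΦp.le
      linarith
    have h6 : ∫ x, F x * m s x ∂μ ≤ (1 / N) * -(Φ s * Real.log (I / W)) := by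
      have := mul_le_mul_of_nonneg_left h5 (show 0 ≤ 1 / N by positivity)
      have h7 : 1 / N * (N * ∫ x, F x * m s x ∂μ) = ∫ x, F x * m s x ∂μ := by field_simp
      rwa [h7] at this
    refine h6.trans (le_of_eq ?_)
    rw [hL]; ring
  -- the decrease
  have hdec : Φ s'' ≤ ∫ x, (F x * (1 - N * r * (m s' x - m s x)) +
      (N * r * (m s' x - m s x)) ^ 2) ∂μ := by
    refine integral_mono (integrable_cont μ (by fun_prop)) (integrable_cont μ (by fun_prop))
      fun x => ?_
    have h1 := hs'' x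
    set y : ℝ := N * r * (m s' x - m s x) with hy
    have h2 : Real.exp (-(N * m s'' x)) ≤ Real.exp (-y) * F x := by
      rw [hF]
      show _ ≤ Real.exp (-y) * Real.exp (-(N * m s x))
      rw [← Real.exp_add]
      refine Real.exp_le_exp.2 ?_
      have := mul_le_mul_of_nonneg_left h1 hN.le
      rw [hy]
      linarith
    have h3 : Real.exp (-y) * F x ≤ 1 := by
      rw [hF]
      show Real.exp (-y) * Real.exp (-(N * m s x)) ≤ 1
      rw [← Real.exp_add, Real.exp_le_one_iff, hy]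
      have h4 : 0 ≤ N * ((1 - r) * m s x + r * m s' x) := by
        have := m0 s x
        have := m0 s' x
        have : 0 ≤ 1 - r := by linarith
        positivity
      linarith
    exact h2.trans (exp_taylor (hF0 x).le (hF1 x) h3)
  have hexpand : ∫ x, (F x * (1 - N * r * (m s' x - m s x)) +
      (N * r * (m s' x - m s x)) ^ 2) ∂μ = Φ s - N * r * ((∫ x, F x * m s' x ∂μ) -
        ∫ x, F x * m s x ∂μ) + (N * r) ^ 2 * ∫ x, (m s' x - m s x) ^ 2 ∂μ := by
    have e1 : ∀ x, F x * (1 - N * r * (m s' x - m s x)) + (N * r * (m s' x - m s x)) ^ 2 =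
        (F x - (N * r) * (F x * m s' x) + (N * r) * (F x * m s x)) +
          (N * r) ^ 2 * (m s' x - m s x) ^ 2 := fun x => by ring
    simp_rw [e1]
    rw [integral_add (integrable_cont μ (by fun_prop)) (integrable_cont μ (by fun_prop)),
      integral_add (integrable_cont μ (by fun_prop)) (integrable_cont μ (by fun_prop)),
      integral_sub (integrable_cont μ (by fun_prop)) (integrable_cont μ (by fun_prop)),
      integral_const_mul, integral_const_mul, integral_const_mul, ← hΦs]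
    ring
  have hsq : ∫ x, (m s' x - m s x) ^ 2 ∂μ ≤ 2 * C := by
    have h1 : ∫ x, (m s' x - m s x) ^ 2 ∂μ ≤ ∫ x, (m s' x ^ 2 + m s x ^ 2) ∂μ := by
      refine integral_mono (integrable_cont μ (by fun_prop)) (integrable_cont μ (by fun_prop))
        fun x => ?_
      show (m s' x - m s x) ^ 2 ≤ m s' x ^ 2 + m s x ^ 2
      nlinarith [mul_nonneg (m0 s x) (m0 s' x)]
    rw [integral_add (integrable_cont μ (by fun_prop)) (integrable_cont μ (by fun_prop))] at h1
    have := L2 s
    have := L2 s'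
    linarith
  have hgap : δ0 * I ≤ (∫ x, F x * m s' x ∂μ) - ∫ x, F x * m s x ∂μ := by
    have h1 : d * Φ s ≤ ∫ x, F x * m s' x ∂μ := hs'
    have h2 : δ0 * I ≤ δ0 * Φ s := mul_le_mul_of_nonneg_left (hIle s) hδ0p.le
    have h3 : δ0 * Φ s = d * Φ s - L * Φ s := by rw [hδ0]; ring
    linarith
  have hfin : Φ s'' < I := by
    have h1 : (N * r) ^ 2 * ∫ x, (m s' x - m s x) ^ 2 ∂μ ≤ (N * r) ^ 2 * (2 * C) :=
      mul_le_mul_of_nonneg_left hsq (sq_nonneg _)
    have h2 : N * r * (δ0 * I) ≤ N * r * ((∫ x, F x * m s' x ∂μ) - ∫ x, F x * m s x ∂μ) :=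
      mul_le_mul_of_nonneg_left hgap (by positivity)
    have h3 : (N * r) ^ 2 * (2 * C) ≤ N * r * (I * δ0) / 2 := by
      have h4 : N * r * (r * (4 * N * (C + 1))) ≤ N * r * (I * δ0) :=
        mul_le_mul_of_nonneg_left hrC (by positivity)
      have h5 : 0 ≤ (N * r) ^ 2 := sq_nonneg _
      nlinarith
    have h6 : Φ s < I + κ' := hs
    rw [hexpand] at hdec
    have h7 : κ' = N * r * (I * δ0) / 2 := hκ'
    have h8 : N * r * (δ0 * I) = N * r * (I * δ0) := by ring
    linarith
  exact absurd (hIle s'') (not_le.2 hfin)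

/-- **The boosting lemma.** -/
theorem boost {S : Type*} [Nonempty S] (μ : Measure X) [IsFiniteMeasure μ] (m : S → X → ℝ)
    (cm : ∀ s, Continuous (m s)) (m0 : ∀ s x, 0 ≤ m s x)
    (mix : ∀ s s' (r : ℝ), 0 ≤ r → r ≤ 1 → ∃ s'', ∀ x, (1 - r) * m s x + r * m s' x ≤ m s'' x)
    {C : ℝ} (L2 : ∀ s, ∫ x, m s x ^ 2 ∂μ ≤ C) {d : ℝ} (hd : 0 < d)
    (oracle : ∀ s (N : ℝ), 0 < N → ∃ s', d * ∫ x, Real.exp (-(N * m s x)) ∂μ ≤
      ∫ x, Real.exp (-(N * m s x)) * m s' x ∂μ) {ε : ℝ} (hε : 0 < ε) :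
    ∃ s, ∫ x, max (d / 2 - m s x) 0 ∂μ ≤ ε := by
  set W : ℝ := μ.real univ with hW
  have hW0 : 0 ≤ W := measureReal_nonneg
  -- choose `N`
  obtain ⟨N, hN, hNε⟩ : ∃ N : ℝ, 0 < N ∧ d / 2 * ((W + 1) * Real.exp (-(N * (d / 2)))) ≤ ε := by
    have h1 : Tendsto (fun N : ℝ => d / 2 * ((W + 1) * Real.exp (-(N * (d / 2))))) atTop
        (𝓝 (d / 2 * ((W + 1) * 0))) := by
      refine Tendsto.const_mul _ (Tendsto.const_mul _ ?_)
      refine Real.tendsto_exp_atBot.comp ?_
      exact tendsto_neg_atTop_atBot.comp (tendsto_id.atTop_mul_const (by positivity))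
    rw [mul_zero, mul_zero] at h1
    obtain ⟨N, h2, h3⟩ := ((h1.eventually (Iio_mem_nhds hε)).and (eventually_gt_atTop 0)).exists
    exact ⟨N, h3, le_of_lt h2⟩
  obtain ⟨s, hs⟩ := boost_inf μ m cm m0 mix L2 (d := d) hN (fun s => oracle s N hN)
    (κ := Real.exp (-(N * d))) (Real.exp_pos _)
  refine ⟨s, ?_⟩
  have c1 := cm s
  have h1 : ∫ x, max (d / 2 - m s x) 0 ∂μ ≤
      ∫ x, d / 2 * Real.exp (N * (d / 2)) * Real.exp (-(N * m s x)) ∂μ := by
    refine integral_mono (integrable_cont μ (by fun_prop)) (integrable_cont μ (by fun_prop))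
      fun x => ?_
    show max (d / 2 - m s x) 0 ≤ d / 2 * Real.exp (N * (d / 2)) * Real.exp (-(N * m s x))
    have h2 : d / 2 * Real.exp (N * (d / 2)) * Real.exp (-(N * m s x)) =
        d / 2 * Real.exp (N * (d / 2 - m s x)) := by
      rw [mul_assoc, ← Real.exp_add]; congr 2; ring
    rw [h2]
    refine max_le ?_ (by positivity)
    rcases le_total (m s x) (d / 2) with h3 | h3
    · have h4 : 1 ≤ Real.exp (N * (d / 2 - m s x)) :=
        Real.one_le_exp (mul_nonneg hN.le (by linarith))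
      have h5 := m0 s x
      nlinarith
    · have h4 : 0 ≤ d / 2 * Real.exp (N * (d / 2 - m s x)) := by positivity
      linarith
  rw [integral_const_mul] at h1
  refine h1.trans (le_trans ?_ hNε)
  have h2 : d / 2 * Real.exp (N * (d / 2)) * ∫ x, Real.exp (-(N * m s x)) ∂μ ≤
      d / 2 * Real.exp (N * (d / 2)) * ((W + 1) * Real.exp (-(N * d))) := by
    refine mul_le_mul_of_nonneg_left (hs.trans (le_of_eq ?_)) (by positivity)
    rw [← hW]; ring
  refine h2.trans (le_of_eq ?_)
  have h3 : Real.exp (-(N * (d / 2))) = Real.exp (N * (d / 2)) * Real.exp (-(N * d)) := by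
    rw [← Real.exp_add]; congr 1; ring
  rw [h3]; ring

end Vale.Agent.P272.K.AMP.BIG.H821
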