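import Vale.Agent.P272.K.AMP.Main.Arith

/-!
# Step 11 with a variable lower bound of `log T`
-/

open scoped Topology
open MeasureTheory Set Filter

set_option linter.all false

noncomputable section

namespace Vale.Agent.P272.K.AMP.BIG.H821

open ABP (integrable_cont)
open Main (bound_of_sublinear split_bound)

variable {X : Type*} [TopologicalSpace X] [CompactSpace X] [MeasurableSpace X] [BorelSpace X]

/-- **Step 11**: the bound of `l = max T`. -/
theorem core_bound' {n : ℕ} (hn : 3 ≤ n) {c K C0 A C1 C2 Lm V1 : ℝ} (hc : 0 < c) (hK : 0 ≤ K)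
    (hC0 : 0 ≤ C0) (hA : 0 ≤ A) (hC1 : 0 ≤ C1) (hC2 : 0 ≤ C2) (hLm : 0 ≤ Lm) (hV1 : 0 ≤ V1) :
    ∃ M : ℝ, 0 < M ∧ ∀ (μ : Measure X) [IsFiniteMeasure μ] (G T f0 m : X → ℝ) (l : ℝ),
      Continuous G → Continuous T → Continuous f0 → Continuous m → (∀ x, 1 ≤ G x) →
      (∀ x, 0 < T x) →
      (∀ x, T x ≤ l) → (∀ x, -m x ≤ Real.log (T x)) → ∫ x, m x ∂μ ≤ Lm → (∀ x, 0 ≤ f0 x) →
      (∀ x, f0 x ≠ 0 → l / 2 ≤ T x) → c ≤ ∫ x, f0 x ∂μ → ∫ x, f0 x ∂μ ≤ K →
      ∫ x, G x ∂μ ≤ V1 + K →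
      (∫ x, (1 + f0 x) * Real.log (T x) ∂μ ≤ C0 * ∫ x, G x * T x ∂μ + ∫ x, G x ∂μ) →
      (∫ x, G x ^ (((n : ℝ) - 2) / (n - 1)) * T x ^ 2 ∂μ ≤ A) →
      (∀ L : ℝ, 1 ≤ L → ∫ x in {x | G x ≤ L}, G x ^ ((n : ℝ) / (n - 1)) ∂μ ≤
        C1 * (1 + Real.log L) ^ ((n : ℝ) / (n - 1))) →
      (∀ L : ℝ, 1 ≤ L →
        ∫ x in {x | L < G x}, G x ∂μ ≤ C2 * L ^ (-(1 / (2 * ((n : ℝ) - 1))))) →
      l ≤ M := by
  have hn' : (3 : ℝ) ≤ n := by exact_mod_cast hn
  have hn1 : (0 : ℝ) < n - 1 := by linarith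
  set a : ℝ := (Lm + C0 * C2 + (V1 + K)) / c + Real.log 2 with ha
  set b : ℝ := C0 * Real.sqrt (A * C1) / c with hb
  have ha0 : 0 ≤ a := by
    have : 0 ≤ Real.log 2 := Real.log_nonneg (by norm_num)
    positivity
  have hb0 : 0 ≤ b := by positivity
  have hp : (n : ℝ) / (2 * (n - 1)) ≤ 3 / 4 := by
    rw [div_le_iff₀ (by positivity)]; linarith
  obtain ⟨M, hM, hMb⟩ := bound_of_sublinear (c := 2 * ((n : ℝ) - 1)) (p := (n : ℝ) / (2 * (n - 1)))
    ha0 hb0 (by positivity) (by positivity) hp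
  refine ⟨Real.exp M + 1, by positivity, ?_⟩
  intro μ _ G T f0 m l hG hT hf0 hm hG1 hT0 hTl hTΛ hmi hf0n hf0T hcf hfK hGV h7 h6 h10 h10c
  rcases le_or_gt l 1 with hl | hl
  · have := Real.exp_pos M; linarith
  have hl0 : 0 < l := by linarith
  have hll : 0 ≤ Real.log l := Real.log_nonneg hl.le
  have hsplit := split_bound hn hA hC1 hC2 μ hG hT hG1 (fun x => (hT0 x).le) hTl hl.le h6 h10 h10c
  have hlogT : Continuous fun x => Real.log (T x) := hT.log fun x => (hT0 x).ne'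
  -- the lower bound of the left hand side
  have h1 : ∀ x, Real.log (l / 2) * f0 x - m x ≤ (1 + f0 x) * Real.log (T x) := by
    intro x
    have h2 := hTΛ x
    have h3 : Real.log (l / 2) * f0 x ≤ f0 x * Real.log (T x) := by
      by_cases h0 : f0 x = 0
      · rw [h0]; simp
      · rw [mul_comm]
        exact mul_le_mul_of_nonneg_left (Real.log_le_log (by positivity) (hf0T x h0)) (hf0n x)
    linarith
  have h2 : Real.log (l / 2) * (∫ x, f0 x ∂μ) - ∫ x, m x ∂μ ≤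
      ∫ x, (1 + f0 x) * Real.log (T x) ∂μ := by
    have h3 := integral_mono (μ := μ) (g := fun x => (1 + f0 x) * Real.log (T x))
      (integrable_cont μ (by fun_prop))
      (integrable_cont μ ((continuous_const.add hf0).mul hlogT)) h1
    rw [integral_sub (integrable_cont μ (by fun_prop)) (integrable_cont μ hm),
      integral_const_mul] at h3
    linarith
  have h3 : Real.log (l / 2) = Real.log l - Real.log 2 := Real.log_div hl0.ne' (by norm_num)
  have h4 : Real.log l - Real.log 2 ≤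
      (Lm + C0 * (Real.sqrt (A * C1) *
        (1 + 2 * (n - 1) * Real.log l) ^ ((n : ℝ) / (2 * (n - 1))) + C2) + (V1 + K)) / c := by
    have h5 : 0 ≤ Lm + C0 * (Real.sqrt (A * C1) *
        (1 + 2 * (n - 1) * Real.log l) ^ ((n : ℝ) / (2 * (n - 1))) + C2) + (V1 + K) := by
      positivity
    have h6' : Real.log (l / 2) * (∫ x, f0 x ∂μ) ≤ Lm + C0 * (Real.sqrt (A * C1) *
        (1 + 2 * (n - 1) * Real.log l) ^ ((n : ℝ) / (2 * (n - 1))) + C2) + (V1 + K) := by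
      have h8 := mul_le_mul_of_nonneg_left hsplit hC0
      linarith
    rw [← h3]
    rcases le_or_gt (Real.log (l / 2)) 0 with h8 | h8
    · exact h8.trans (div_nonneg h5 hc.le)
    · rw [le_div_iff₀ hc]
      exact (mul_le_mul_of_nonneg_left hcf h8.le).trans h6'
  have h5 : Real.log l ≤ a + b * (1 + 2 * ((n : ℝ) - 1) * Real.log l) ^
      ((n : ℝ) / (2 * (n - 1))) := by
    have h8 : (Lm + C0 * (Real.sqrt (A * C1) *
        (1 + 2 * (n - 1) * Real.log l) ^ ((n : ℝ) / (2 * (n - 1))) + C2) + (V1 + K)) / c =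
        (Lm + C0 * C2 + (V1 + K)) / c + b * (1 + 2 * ((n : ℝ) - 1) * Real.log l) ^
      ((n : ℝ) / (2 * (n - 1))) := by
      rw [hb]; field_simp; ring
    rw [h8] at h4
    rw [ha]
    linarith
  have h8 := hMb (Real.log l) hll h5
  have h9 := Real.exp_le_exp.2 h8
  rw [Real.exp_log hl0] at h9
  linarith

end Vale.Agent.P272.K.AMP.BIG.H821
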