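import Vale.Agent.P272.K.AMP.BIG.Defs
import Vale.Agent.P272.K.AMP.BIG.H821.Core
import Vale.Agent.P272.K.AMP.Main.Final

/-!
# Block MACH: Steps 1-4 and 7-11 for the metrics controlled by `CtrlB`
-/

open scoped Manifold ContDiff ComplexOrder Topology
open Complex Set Filter MeasureTheory

set_option linter.all false

noncomputable section

namespace Vale.Agent.P272.K.AMP.BIG.H821

open INT (IsDensity intX part Part)
open Main

variable {n : ℕ} {X : Type} [TopologicalSpace X] [ChartedSpace (Cm n) X]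
  [IsManifold 𝓘(ℂ, Cm n) ω X] [T2Space X] [CompactSpace X]
  {w g : Chart n X → Cm n → Matrix (Fin n) (Fin n) ℂ} {σ : X → ℝ} {b Λ v0 V1 : ℝ}

lemma two_of {f : Cm n → ℝ} {z : Cm n} (h : ContDiffAt ℝ ∞ f z) : ContDiffAt ℝ 2 f z :=
  h.of_le (by exact WithTop.coe_le_coe.2 le_top)

lemma pot_le (hw : IsHermitian w) (h : CtrlB w g σ b Λ v0 V1) (x : X) :
    potX w g x + b * σ x ≤ Λ := by
  have hx := at_chartAt (n := n) x
  rw [pot_eq hw h.kahler.toIsHermitian hx]
  exact h.pot _ x hx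

/-- `log tr_g w ≥ -(Λ - b σ)` -/
lemma log_trX_ge (hn : 1 ≤ n) (hw : IsHermitian w) (hΛ : 0 ≤ Λ) (hb : 0 ≤ b)
    (h : CtrlB w g σ b Λ v0 V1) (x : X) :
    0 < trX g w x ∧ -(Λ - b * σ x) ≤ Real.log (trX g w x) := by
  haveI : Nonempty (Fin n) := ⟨⟨0, hn⟩⟩
  have hx := at_chartAt (n := n) x
  set e := chartAt (Cm n) x with he
  have hgp := h.kahler.posDef e x hx
  have hwp := hw.posDef e x hx
  have h1 := ABP.amgm_trace_inv hgp hwp
  rw [Fintype.card_fin] at h1
  have h2 : trX g w x = ((g e (e x))⁻¹ * w e (e x)).trace.re := rfl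
  have hd1 := h.kahler.toIsHermitian.det_re_pos hx
  have hd2 := hw.det_re_pos hx
  have hn' : (1 : ℝ) ≤ n := by exact_mod_cast hn
  have hσ : b * σ x ≤ 0 := mul_nonpos_of_nonneg_of_nonpos hb (h.nonpos x)
  set L : ℝ := Λ - b * σ x with hL
  have hL0 : 0 ≤ L := by rw [hL]; linarith
  have h3 : Real.exp (-L) ≤ (n : ℝ) * ((w e (e x)).det.re / (g e (e x)).det.re) ^ ((1 : ℝ) / n) := by
    have h4 : (w e (e x)).det.re / (g e (e x)).det.re = Real.exp (-(potX w g x)) := by
      rw [det_eq_pot hw h.kahler.toIsHermitian hx, Real.exp_neg]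
      field_simp
    rw [h4, ← Real.exp_mul]
    have h5 : Real.exp (-L) ≤ Real.exp (-(potX w g x) * (1 / n)) := by
      refine Real.exp_le_exp.2 ?_
      have h6 := pot_le hw h x
      have h7 : potX w g x * (1 / n) ≤ L * (1 / n) :=
        mul_le_mul_of_nonneg_right (by rw [hL]; linarith) (by positivity)
      have h8 : L * (1 / n) ≤ L := by
        have : 1 / (n : ℝ) ≤ 1 := by
          rw [div_le_iff₀ (by linarith)]; linarith
        nlinarith
      linarith
    calc Real.exp (-L) ≤ Real.exp (-(potX w g x) * (1 / n)) := h5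
      _ ≤ n * Real.exp (-(potX w g x) * (1 / n)) := le_mul_of_one_le_left (Real.exp_pos _).le hn'
  have h4 : Real.exp (-L) ≤ trX g w x := by rw [h2]; exact h3.trans h1
  have h5 : 0 < trX g w x := (Real.exp_pos _).trans_le h4
  refine ⟨h5, ?_⟩
  rwa [Real.le_log_iff_exp_le h5]

/-- `∫ (Λ - b σ) dv_g ≤ Λ V1 + e^Λ K` -/
lemma int_sigma (hw : IsHermitian w) (hΛ : 0 ≤ Λ) (hb : 0 ≤ b) (h : CtrlB w g σ b Λ v0 V1)
    {K : ℝ} (hK : IX w (fun x => Real.exp (-(2 * b * σ x))) ≤ K) :
    IX g (fun x => Λ - b * σ x) ≤ Λ * V1 + Real.exp Λ * K := by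
  have hgH := h.kahler.toIsHermitian
  have cσ := INT.SmoothFn.continuous h.smooth
  have cu := INT.SmoothFn.continuous (smoothFn_pot hw hgH)
  have h1 : IX g (fun x => Λ - b * σ x) = IX g (fun _ => Λ * 1) + IX g (fun x => -(b * σ x)) := by
    rw [← IX_add hgH continuous_const (by fun_prop)]
    refine IX_congr fun x => ?_
    ring
  rw [h1, IX_const_mul, IX_one]
  refine add_le_add (mul_le_mul_of_nonneg_left h.vol_le hΛ) ?_
  have h2 : IX g (fun x => -(b * σ x)) ≤
      IX w (fun x => Real.exp Λ * Real.exp (-(2 * b * σ x))) := by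
    rw [IX_eq_pot hw hgH]
    refine IX_mono hw (by fun_prop) (by fun_prop) fun x => ?_
    have h3 := pot_le hw h x
    have h4 : -(b * σ x) ≤ Real.exp (-(b * σ x)) := by
      have := Real.add_one_le_exp (-(b * σ x)); linarith
    calc -(b * σ x) * Real.exp (potX w g x) ≤
          Real.exp (-(b * σ x)) * Real.exp (potX w g x) :=
          mul_le_mul_of_nonneg_right h4 (Real.exp_pos _).le
      _ = Real.exp (-(b * σ x) + potX w g x) := (Real.exp_add _ _).symm
      _ ≤ Real.exp (Λ + -(2 * b * σ x)) := Real.exp_le_exp.2 (by linarith)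
      _ = _ := Real.exp_add _ _
  rw [IX_const_mul] at h2
  exact h2.trans (mul_le_mul_of_nonneg_left hK (Real.exp_pos _).le)

/-- exponential integrability for the metrics controlled by `CtrlB` -/
theorem expHyp_B [Nonempty X] (hE : ExpInt n X) (hw : IsHermitian w) (hv0 : 0 < v0)
    (hΛ : 0 ≤ Λ) (hb : 0 ≤ b) {K : ℝ} (hK0 : 0 < K) : ∃ α : ℝ, 0 < α ∧ ∃ CE : ℝ, 0 ≤ CE ∧
    ∀ (g : Chart n X → Cm n → Matrix (Fin n) (Fin n) ℂ) (σ : X → ℝ), CtrlB w g σ b Λ v0 V1 →
      IX w (fun x => Real.exp (-(2 * b * σ x))) ≤ K → ExpHyp g α CE := by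
  set m0 : ℝ := Real.log (3 * v0 / (4 * K)) with hm0
  obtain ⟨α, hα, K2, hK2⟩ := hE w hw Λ (max Λ (-m0))
  refine ⟨α / 2, by positivity, Real.exp ((1 + α / 2) * Λ) * (|K2| + K), by positivity, ?_⟩
  intro g σ hg hσK ψ hψ hψ0 hpos hmass
  have hgH := hg.kahler.toIsHermitian
  have hu := smoothFn_pot hw hgH
  have cu := INT.SmoothFn.continuous hu
  have cψ := INT.SmoothFn.continuous hψ
  have cσ := INT.SmoothFn.continuous hg.smooth
  have hbσ : SmoothFn (n := n) (fun x => b * σ x) := fun e x hx =>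
    contDiffAt_const.mul (hg.smooth e x hx)
  set Ψ : X → ℝ := fun x => (potX w g x + b * σ x) + ψ x with hΨ
  have hΨs : SmoothFn (n := n) Ψ := sm_add (sm_add hu hbσ) hψ
  have cΨ := INT.SmoothFn.continuous hΨs
  have hbσ0 : ∀ x, b * σ x ≤ 0 := fun x => mul_nonpos_of_nonneg_of_nonpos hb (hg.nonpos x)
  -- quasi-plurisubharmonicity
  have h1 : ∀ e x, At e x → (addH (fun e z => (Λ : ℂ) • w e z) Ψ e (e x)).PosSemidef := by
    intro e x hx
    have h2 := hg.upper e x hx
    have h3 := (hpos e x hx).posSemidef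
    have h4 : addH (fun e z => (Λ : ℂ) • w e z) Ψ e (e x) =
        ((Λ : ℂ) • w e (e x) +
          cHess (fun z => Real.log (g e z).det.re - Real.log (w e z).det.re) (e x) +
          (b : ℂ) • cHess (fun y => σ (e.symm y)) (e x) - g e (e x)) +
        addH g ψ e (e x) := by
      unfold addH
      have h6 : cHess (fun y => b * σ (e.symm y)) (e x) =
          (b : ℂ) • cHess (fun y => σ (e.symm y)) (e x) :=
        C2.cHess_const_mul b (two_of (hg.smooth e x hx))
      have h5 : cHess (fun y => Ψ (e.symm y)) (e x) =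
          (cHess (fun y => potX w g (e.symm y)) (e x) +
            (b : ℂ) • cHess (fun y => σ (e.symm y)) (e x)) +
            cHess (fun y => ψ (e.symm y)) (e x) := by
        have h7 : cHess (fun y => potX w g (e.symm y) + b * σ (e.symm y)) (e x) =
            cHess (fun y => potX w g (e.symm y)) (e x) +
              cHess (fun y => b * σ (e.symm y)) (e x) :=
          cHess_add (two_of (hu e x hx)) (two_of (hbσ e x hx))
        rw [← h6, ← h7]
        exact cHess_add (two_of ((hu e x hx).add (hbσ e x hx))) (two_of (hψ e x hx))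
      rw [h5, cHess_congr (pot_ev hw hgH hx)]
      abel
    rw [h4]
    exact h2.add h3
  -- upper bound
  have h2 : ∀ x, Ψ x ≤ max Λ (-m0) := fun x => by
    have := pot_le hw hg x
    have h3 := hψ0 x
    have h4 : Ψ x = potX w g x + b * σ x + ψ x := rfl
    have h5 := le_max_left Λ (-m0)
    linarith
  -- lower bound of the supremum
  have h3 : ∃ x, -(max Λ (-m0)) ≤ Ψ x := by
    by_contra hcon
    push Not at hcon
    obtain ⟨x0, -, hx0⟩ := isCompact_univ.exists_isMaxOn ⟨Classical.arbitrary X, Set.mem_univ _⟩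
      cΨ.continuousOn
    have hmax : ∀ y, Ψ y ≤ Ψ x0 := fun y => hx0 (Set.mem_univ y)
    have h5 : Ψ x0 < m0 := by
      have h5 := hcon x0
      have h6 := le_max_right Λ (-m0)
      linarith
    have h7 : IX g (fun x => Real.exp (ψ x)) ≤
        IX w (fun x => Real.exp (Ψ x0) * Real.exp (-(2 * b * σ x))) := by
      rw [IX_eq_pot hw hgH]
      refine IX_mono hw (by fun_prop) (by fun_prop) fun x => ?_
      rw [← Real.exp_add, ← Real.exp_add]
      refine Real.exp_le_exp.2 ?_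
      have h8 := hmax x
      have h9 := hbσ0 x
      have h10 : Ψ x = potX w g x + b * σ x + ψ x := rfl
      linarith
    rw [IX_const_mul] at h7
    have h7' : IX g (fun x => Real.exp (ψ x)) ≤ Real.exp (Ψ x0) * K :=
      h7.trans (mul_le_mul_of_nonneg_left hσK (Real.exp_pos _).le)
    have h8 : Real.exp (Ψ x0) * K < 3 * v0 / 4 := by
      have h9 : Real.exp (Ψ x0) < Real.exp m0 := Real.exp_lt_exp.2 h5
      rw [hm0, Real.exp_log (by positivity)] at h9
      have h10 := mul_lt_mul_of_pos_right h9 hK0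
      calc _ < _ := h10
        _ = _ := by field_simp
    have h9 := hg.vol_ge
    linarith
  have h4 := hK2 Ψ hΨs h1 h2 h3
  have h5 : IX g (fun x => Real.exp (-(α / 2 * ψ x))) ≤
      IX w (fun x => Real.exp ((1 + α / 2) * Λ) * (Real.exp (-(α * Ψ x)) +
        Real.exp (-(2 * b * σ x)))) := by
    rw [IX_eq_pot hw hgH]
    refine IX_mono hw (by fun_prop) (by fun_prop) fun x => ?_
    rw [← Real.exp_add]
    have h6 := pot_le hw hg x
    have h7 : (1 + α / 2) * (potX w g x + b * σ x) ≤ (1 + α / 2) * Λ :=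
      mul_le_mul_of_nonneg_left h6 (by linarith)
    have h8 : -(α / 2 * ψ x) + potX w g x ≤
        (1 + α / 2) * Λ + (-(α / 2 * Ψ x) + -(b * σ x)) := by
      simp only [hΨ]
      linarith
    refine (Real.exp_le_exp.2 h8).trans ?_
    rw [Real.exp_add]
    refine mul_le_mul_of_nonneg_left ?_ (Real.exp_pos _).le
    -- `xy ≤ x² + y²`
    have h9 : Real.exp (-(α * Ψ x)) = Real.exp (-(α / 2 * Ψ x)) ^ 2 := by
      rw [← Real.exp_nat_mul]; congr 1; push_cast; ring
    have h10 : Real.exp (-(2 * b * σ x)) = Real.exp (-(b * σ x)) ^ 2 := by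
      rw [← Real.exp_nat_mul]; congr 1; push_cast; ring
    rw [h9, h10, Real.exp_add]
    nlinarith [sq_nonneg (Real.exp (-(α / 2 * Ψ x)) - Real.exp (-(b * σ x))),
      Real.exp_pos (-(α / 2 * Ψ x)), Real.exp_pos (-(b * σ x))]
  rw [IX_const_mul] at h5
  refine h5.trans (mul_le_mul_of_nonneg_left ?_ (Real.exp_pos _).le)
  rw [IX_add hw (by fun_prop) (by fun_prop)]
  refine add_le_add ?_ hσK
  have h6 : IX w (fun x => Real.exp (-(α * Ψ x))) =
      intX (fun e z => Real.exp (-(α * Ψ (e.symm z))) * (w e z).det.re) := rfl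
  rw [h6]
  exact h4.trans (le_abs_self K2)

/-- the machine -/
theorem mach [Nonempty X] (hn : 3 ≤ n) (hw : IsKahler w) (hP : PoleBlock n X) (hE : ExpInt n X)
    (hΛ : 0 ≤ Λ) (hv0 : 0 < v0) (hb : 0 ≤ b) {Kσ : ℝ} (hKσ : 0 < Kσ) (V1 C1 : ℝ) :
    ∃ C : ℝ, 0 < C ∧
      ∀ (g : Chart n X → Cm n → Matrix (Fin n) (Fin n) ℂ) (σ : X → ℝ),
        CtrlB w g σ b Λ v0 V1 → IX w (fun x => Real.exp (-(2 * b * σ x))) ≤ Kσ →
        DDg w g C1 → ∀ x, trX g w x ≤ C := by
  rcases lt_or_ge V1 v0 with hVV | hVV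
  · exact ⟨1, one_pos, fun g σ hg => absurd (hg.vol_ge.trans hg.vol_le) (not_le.2 hVV)⟩
  have hn2 : 2 ≤ n := by omega
  have hn1 : 1 ≤ n := by omega
  have hn' : (3 : ℝ) ≤ n := by exact_mod_cast hn
  have hV1 : 0 < V1 := lt_of_lt_of_le hv0 hVV
  letI : MeasurableSpace X := borel X
  haveI : BorelSpace X := ⟨rfl⟩
  have hwH := hw.toIsHermitian
  obtain ⟨K, hK1, hPK⟩ := hP
  set KH : ℝ := Kh n K with hKHdef
  set CD : ℝ := |C1| with hCD
  obtain ⟨α, hα, CE, hCE, hexp⟩ := expHyp_B (n := n) (V1 := V1) hE hwH hv0 hΛ hb hKσ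
  obtain ⟨C0, hC0, h7⟩ := step7 hn1 hw
  have hK0 : 0 < K := by linarith
  set Q : ℝ := Kq n K with hQ
  set K3 : ℝ := max (max K (((n : ℝ) - 1) ^ 2 * Q)) V1 with hK3
  have hK3a : K ≤ K3 := (le_max_left _ _).trans (le_max_left _ _)
  have hK3b : ((n : ℝ) - 1) ^ 2 * Q ≤ K3 := (le_max_right _ _).trans (le_max_left _ _)
  have hK3c : V1 ≤ K3 := le_max_right _ _
  obtain ⟨C10, hC10, h10⟩ := ABP.abp10 (CE := CE) (X := X) hn2 (aubinYau n X)
    (hK1.trans hK3a) hα hv0
  set A : ℝ := CD * ((V1 + K) + |KH| * (V1 + K)) with hA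
  have hA0 : 0 ≤ A := by positivity
  set Lm : ℝ := Λ * V1 + Real.exp Λ * Kσ with hLm
  have hLm0 : 0 ≤ Lm := by positivity
  obtain ⟨M, hM, hcore⟩ := core_bound' (X := X) hn (c := K⁻¹) (K := K) (C0 := C0) (A := A)
    (C1 := C10) (C2 := C10) (Lm := Lm) (V1 := V1) (by positivity) hK0.le hC0 hA0 hC10.le hC10.le
    hLm0 hV1.le
  refine ⟨M, hM, fun g σ hg hσK hDD => ?_⟩
  have hgK := hg.kahler
  have hgH := hgK.toIsHermitian
  have hric : RicGe g := hg.ric
  haveI := isFiniteMeasure_volX hgH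
  have hTs : SmoothFn (n := n) (trX g w) := S7.smoothFn_trX_w hgH hwH
  have cT := INT.SmoothFn.continuous hTs
  have cσ := INT.SmoothFn.continuous hg.smooth
  have hTpos : ∀ x, 0 < trX g w x := fun x => (log_trX_ge hn1 hwH hΛ hb hg x).1
  have hTlog : ∀ x, -(Λ - b * σ x) ≤ Real.log (trX g w x) := fun x =>
    (log_trX_ge hn1 hwH hΛ hb hg x).2
  have cm : Continuous fun x => Λ - b * σ x := by fun_prop
  have hmi : ∫ x, (Λ - b * σ x) ∂(volX g) ≤ Lm := by
    rw [integral_eq_IX hgH cm]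
    exact int_sigma hwH hΛ hb hg hσK
  -- the maximum point
  obtain ⟨x0, -, hx0⟩ := isCompact_univ.exists_isMaxOn ⟨Classical.arbitrary X, Set.mem_univ _⟩
    cT.continuousOn
  have hmax : ∀ y, trX g w y ≤ trX g w x0 := fun y => hx0 (Set.mem_univ y)
  set l : ℝ := trX g w x0 with hl
  have hl0 : 0 < l := hTpos x0
  obtain ⟨f0, G, hf0s, hGs, hf0n, hf0U, hG1, heq, hf0G, hgradG, hm1, hm2⟩ :=
    hPK g hgK hric {y | l / 2 < trX g w y} (isOpen_lt continuous_const cT) x0 (by
      show l / 2 < trX g w x0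
      rw [← hl]; linarith)
  have cf0 := INT.SmoothFn.continuous hf0s
  have cG := INT.SmoothFn.continuous hGs
  have hGpos : ∀ x, 0 < G x := fun x => lt_of_lt_of_le one_pos (hG1 x)
  have hpole : Pole g (Bof n G) f0 K := pole_Bof hn2 hGs hG1 hf0s hf0n heq hf0G hgradG
  have hQb : ∀ x, Qf g (Bof n G) x ≤ Q := fun x => hpole.q_bound hn hgK hric x
  have hlapG : SmoothFn (n := n) (lapX g G) := smoothFn_lapX hgH hGs
  have clG := INT.SmoothFn.continuous hlapG
  -- the volume and the mass of `G`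
  have hV : (volX g).real univ = intX fun e z => (g e z).det.re := volX_real_univ hgH
  have hVle : (volX g).real univ ≤ V1 := by rw [hV]; exact hg.vol_le
  have hVge : v0 ≤ (volX g).real univ := by rw [hV]; exact hg.vol_ge
  have hIX1f : IX g (fun x => 1 + f0 x) = (volX g).real univ + IX g f0 := by
    rw [IX_add hgH continuous_const cf0, IX_one, hV]
  have hIXG : IX g G = (volX g).real univ + IX g f0 := by
    rw [← hIX1f]
    have h1 : IX g (fun x => G x - lapX g G x) = IX g G - IX g (lapX g G) := IX_sub hgH cG clG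
    rw [IX_lapX hgK hGs, sub_zero] at h1
    rw [← h1]
    exact IX_congr heq
  have hIXG' : IX g G ≤ V1 + K := by rw [hIXG]; linarith
  -- the data for Step 10
  have hGdata : ABP.GData g G f0 K3 := by
    refine ⟨hGs, hf0s, hG1, hf0n, heq, fun x => ?_, fun x => ?_, ?_⟩
    · have h1 : 0 ≤ G x ^ ((n : ℝ) / (n - 1)) := Real.rpow_nonneg (hGpos x).le _
      exact (hf0G x).trans (mul_le_mul_of_nonneg_right hK3a h1)
    · have h1 : 0 ≤ G x ^ (2 + 1 / ((n : ℝ) - 1)) := Real.rpow_nonneg (hGpos x).le _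
      exact (gradX_G_le hn2 hGs hG1 (hQb x)).trans (mul_le_mul_of_nonneg_right hK3b h1)
    · rw [integral_eq_IX hgH cf0]; exact hm2.trans hK3a
  have h10' := h10 g hgK G f0 hGdata hVge (hVle.trans hK3c)
    (expG_of_expHyp hgH (hexp g σ hg hσK))
  -- the inequality (6.1)
  have hBs : SmoothFn (n := n) (Bof n G) := smoothFn_Bof hGs hG1
  have hB0 := Bof_pos (n := n) hG1
  have h6 : IX g (fun x => ((Bof n G x)⁻¹) ^ (n - 2) * (trX g w x) ^ 2) ≤ A := by
    have hH1 : 0 ≤ IX g (fun x => ((Bof n G x)⁻¹) ^ (n - 1)) := IX_nonneg hgH fun x =>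
      pow_nonneg (inv_nonneg.2 (hB0 x).le) _
    have hH2 : 0 ≤ intX (fun e z => ((Bof n G (e.symm z))⁻¹) ^ n * sqE g (Hf g (Bof n G)) e z *
        (g e z).det.re) := INT.intX_nonneg fun e x hx => by
      have hG := hgH.posDef e x hx
      have hdet := hgH.det_re_pos hx
      have hHfH : (Hf g (Bof n G) e (e x)).IsHermitian := by
        unfold Hf
        refine Matrix.IsHermitian.sub (cHess_isHermitian ((hBs e x hx).of_le (by norm_cast))) ?_
        exact hG.isHermitian.smul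
          (by simp only [IsSelfAdjoint, Complex.star_def, Complex.conj_ofReal])
      have h1 : 0 ≤ sqE g (Hf g (Bof n G)) e (e x) := DD.pr_self_nonneg hG hHfH
      have h2 := hB0 (e.symm (e x))
      positivity
    refine ((hDD (Bof n G) hBs hB0 (Bof_le_one hn2 hG1)).trans
      (mul_le_mul_of_nonneg_right (le_abs_self C1) (add_nonneg hH1 hH2))).trans ?_
    rw [hA]
    refine mul_le_mul_of_nonneg_left (add_le_add ?_ ?_) (abs_nonneg _)
    · have h1 : IX g (fun x => ((Bof n G x)⁻¹) ^ (n - 1)) = IX g G :=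
        IX_congr fun x => (G_eq_Bof hn2 hG1 x).symm
      rw [h1]; exact hIXG'
    · refine (hess_intX hn hgK hric hpole).trans ?_
      rw [← hKHdef]
      have h1 : intX (fun e z => (1 + f0 (e.symm z)) * (g e z).det.re) =
          IX g (fun x => 1 + f0 x) := rfl
      rw [h1, hIX1f]
      have h2 : 0 ≤ (volX g).real univ + IX g f0 := by
        have := IX_nonneg hgH hf0n
        linarith
      have h3 : (volX g).real univ + IX g f0 ≤ V1 + K := by linarith
      calc KH * ((volX g).real univ + IX g f0) ≤ |KH| * ((volX g).real univ + IX g f0) :=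
            mul_le_mul_of_nonneg_right (le_abs_self _) h2
        _ ≤ |KH| * (V1 + K) := mul_le_mul_of_nonneg_left h3 (abs_nonneg _)
  have hrho : ∀ x, G x ^ (((n : ℝ) - 2) / (n - 1)) = ((Bof n G x)⁻¹) ^ (n - 2) := by
    intro x
    have h1 : (Bof n G x)⁻¹ = G x ^ (1 / ((n : ℝ) - 1)) := (G_rpow_one_div hG1 x).symm
    rw [h1, ← Real.rpow_natCast, ← Real.rpow_mul (hGpos x).le]
    congr 1
    rw [Nat.cast_sub hn2]; push_cast; ring
  have hcr : ∀ r : ℝ, Continuous fun x => G x ^ r := fun r =>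
    cG.rpow_const fun x => Or.inl (hGpos x).ne'
  have h6' : ∫ x, G x ^ (((n : ℝ) - 2) / (n - 1)) * trX g w x ^ 2 ∂(volX g) ≤ A := by
    have h1 : Continuous fun x => G x ^ (((n : ℝ) - 2) / (n - 1)) * trX g w x ^ 2 :=
      (hcr _).mul (cT.pow 2)
    rw [integral_eq_IX hgH h1]
    refine le_trans (le_of_eq (IX_congr fun x => ?_)) h6
    rw [hrho]
  -- Step 7
  have h7' := h7 g hgK hric G f0 hGs hf0s (fun x => (hGpos x).le) heq
  have clT : Continuous fun x => Real.log (trX g w x) := cT.log fun x => (hTpos x).ne'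
  have h7'' : ∫ x, (1 + f0 x) * Real.log (trX g w x) ∂(volX g) ≤
      C0 * ∫ x, G x * trX g w x ∂(volX g) + ∫ x, G x ∂(volX g) := by
    have c1 : Continuous fun x => (1 + f0 x) * Real.log (trX g w x) :=
      (continuous_const.add cf0).mul clT
    have c2 : Continuous fun x => G x * trX g w x := cG.mul cT
    rw [integral_eq_IX hgH c1, integral_eq_IX hgH c2, integral_eq_IX hgH cG]
    exact h7'
  have hlM : l ≤ M := by
    refine hcore (volX g) G (trX g w) f0 (fun x => Λ - b * σ x) l cG cT cf0 cm hG1 hTpos hmax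
      hTlog hmi hf0n (fun x hx => ?_)
      ?_ ?_ ?_ h7'' h6' (fun L hL => (h10' L hL).1) (fun L hL => (h10' L hL).2)
    · by_contra hcon
      exact hx (hf0U x fun h => hcon (le_of_lt h))
    · rw [integral_eq_IX hgH cf0]; exact hm1
    · rw [integral_eq_IX hgH cf0]; exact hm2
    · rw [integral_eq_IX hgH cG]; exact hIXG'
  intro x
  exact (hmax x).trans hlM

/-- **Block MACH** -/
theorem machBlock (hn : 3 ≤ n) (X : Type) [TopologicalSpace X] [T2Space X] [CompactSpace X]
    [ConnectedSpace X] [ChartedSpace (Cm n) X] [IsManifold 𝓘(ℂ, Cm n) ω X] : MachBlock n X := by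
  intro w hw Λ v0 hΛ hv0
  have hwH := hw.toIsHermitian
  obtain ⟨αs, hαs, K0, hK0⟩ := expInt_all n X w hwH Λ 0
  refine ⟨min 1 (αs / 2), lt_min one_pos (by positivity), min_le_left _ _, ?_⟩
  intro b hb hb1 V1 C1
  obtain ⟨C, hC, H⟩ := mach (Kσ := |K0| + 1) hn hw (poleBlock_all (by omega) X) (expInt_all n X)
    hΛ hv0 hb (by positivity) V1 C1
  refine ⟨C, hC, fun g σ hg hDD => H g σ hg ?_ hDD⟩
  have cσ := INT.SmoothFn.continuous hg.smooth
  have h1 := hK0 σ hg.smooth hg.qpsh hg.nonpos (by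
    obtain ⟨x, hx⟩ := hg.zero
    exact ⟨x, by rw [hx]; simp⟩)
  have h2 : IX w (fun x => Real.exp (-(2 * b * σ x))) ≤ IX w (fun x => Real.exp (-(αs * σ x))) := by
    refine IX_mono hwH (by fun_prop) (by fun_prop) fun x => Real.exp_le_exp.2 ?_
    have h3 := hg.nonpos x
    have h4 : 2 * b ≤ αs := by
      have := hb1.trans (min_le_right _ _)
      linarith
    have h5 : 0 ≤ -σ x := by linarith
    have h6 := mul_le_mul_of_nonneg_right h4 h5
    linarith
  have h3 : IX w (fun x => Real.exp (-(αs * σ x))) =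
      intX (fun e z => Real.exp (-(αs * σ (e.symm z))) * (w e z).det.re) := rfl
  rw [h3] at h2
  have h4 := le_abs_self K0
  linarith

end Vale.Agent.P272.K.AMP.BIG.H821
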